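import Vale.Agent.P066.Defs
import Mathlib.Combinatorics.SimpleGraph.Coloring.Vertex
import Mathlib.Algebra.Polynomial.Reverse

set_option autoImplicit false

namespace Vale.Agent.P066.H52

open Finset

/-- `esymmPart` has integer coefficients. -/
theorem map_esymmPart {σ : Type*} [Fintype σ] {R S : Type*} [CommSemiring R] [CommSemiring S]
    {n : ℕ} (μ : n.Partition) (φ : R →+* S) :
    MvPolynomial.map φ (MvPolynomial.esymmPart σ R μ) = MvPolynomial.esymmPart σ S μ := by
  unfold MvPolynomial.esymmPart
  rw [map_multiset_prod, Multiset.map_map]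
  congr 1
  apply Multiset.map_congr rfl
  intro k _
  simp [MvPolynomial.map_esymm]

theorem rename_esymmPart {σ τ : Type*} [Fintype σ] [Fintype τ] {R : Type*} [CommSemiring R]
    {n : ℕ} (μ : n.Partition) (e : σ ≃ τ) :
    MvPolynomial.rename e (MvPolynomial.esymmPart σ R μ) = MvPolynomial.esymmPart τ R μ := by
  unfold MvPolynomial.esymmPart
  rw [map_multiset_prod, Multiset.map_map]
  congr 1
  apply Multiset.map_congr rfl
  intro k _
  simp [MvPolynomial.rename_esymm]

/-- The coefficient of `C w * P` where `P` has integer coefficients. -/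
theorem coeff_C_mul_map {σ : Type*} (w : Polynomial ℤ) (P : MvPolynomial σ ℤ) (m : σ →₀ ℕ) :
    MvPolynomial.coeff m
      (MvPolynomial.C w * MvPolynomial.map (Int.castRingHom (Polynomial ℤ)) P) =
      (MvPolynomial.coeff m P) • w := by
  rw [MvPolynomial.coeff_C_mul, MvPolynomial.coeff_map]
  simp [mul_comm]

/-- An additive map of `ℤ[q]` may be applied to the coefficients of an identity between
combinations of polynomials with integer coefficients. -/
theorem applyHom {σ : Type*} {ι κ : Type*} (L : Polynomial ℤ →+ Polynomial ℤ)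
    (s : Finset ι) (t : Finset κ) (w : ι → Polynomial ℤ) (P : ι → MvPolynomial σ ℤ)
    (c : κ → Polynomial ℤ) (Q : κ → MvPolynomial σ ℤ)
    (h : ∑ i ∈ s, MvPolynomial.C (w i) *
        MvPolynomial.map (Int.castRingHom (Polynomial ℤ)) (P i) =
      ∑ j ∈ t, MvPolynomial.C (c j) *
        MvPolynomial.map (Int.castRingHom (Polynomial ℤ)) (Q j)) :
    ∑ i ∈ s, MvPolynomial.C (L (w i)) *
        MvPolynomial.map (Int.castRingHom (Polynomial ℤ)) (P i) =
      ∑ j ∈ t, MvPolynomial.C (L (c j)) *
        MvPolynomial.map (Int.castRingHom (Polynomial ℤ)) (Q j) := by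
  apply MvPolynomial.ext
  intro m
  have h1 := congrArg (MvPolynomial.coeff m) h
  rw [MvPolynomial.coeff_sum, MvPolynomial.coeff_sum] at h1 ⊢
  simp only [coeff_C_mul_map] at h1 ⊢
  have h2 := congrArg L h1
  rw [map_sum, map_sum] at h2
  simpa only [map_zsmul] using h2

theorem prod_X_map {V σ : Type*} [Fintype V] (f : V → σ) :
    MvPolynomial.map (Int.castRingHom (Polynomial ℤ)) (∏ a, MvPolynomial.X (f a)) =
      ∏ a, (MvPolynomial.X (f a) : MvPolynomial σ (Polynomial ℤ)) := by
  rw [map_prod]
  simp

/-- The additive map form of `applyHom` for the expansions in this file. -/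
theorem applyHom_esymm {V : Type*} [Fintype V] {N n : ℕ} {ι : Type*}
    (L : Polynomial ℤ →+ Polynomial ℤ) (s : Finset ι) (f : ι → V → Fin N)
    (w : ι → Polynomial ℤ) (c : n.Partition → Polynomial ℤ)
    (h : ∑ i ∈ s, MvPolynomial.C (w i) * ∏ a, MvPolynomial.X (f i a) =
      ∑ p : n.Partition, MvPolynomial.C (c p) *
        MvPolynomial.esymmPart (Fin N) (Polynomial ℤ) p) :
    ∑ i ∈ s, MvPolynomial.C (L (w i)) * ∏ a, MvPolynomial.X (f i a) =
      ∑ p : n.Partition, MvPolynomial.C (L (c p)) *
        MvPolynomial.esymmPart (Fin N) (Polynomial ℤ) p := by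
  have h1 := applyHom L s univ w (fun i => ∏ a, MvPolynomial.X (f i a)) c
    (fun p => MvPolynomial.esymmPart (Fin N) ℤ p)
    (by simpa only [prod_X_map, map_esymmPart] using h)
  simpa only [prod_X_map, map_esymmPart] using h1

end Vale.Agent.P066.H52
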