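import Vale.Agent.P066.H52.Transport

set_option autoImplicit false

namespace Vale.Agent.P066.H52

open Finset

open Classical in
theorem edg_eq {V : Type*} [Fintype V] [LinearOrder V] (G : SimpleGraph V) :
    edg G = #G.edgeFinset := by
  unfold edg
  refine Finset.card_bij (fun p _ => s(p.1, p.2)) ?_ ?_ ?_
  · intro p hp
    simp only [Finset.mem_filter, Finset.mem_univ, true_and] at hp
    rw [SimpleGraph.mem_edgeFinset, SimpleGraph.mem_edgeSet]
    exact hp.2
  · intro p hp p' hp' h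
    simp only [Finset.mem_filter, Finset.mem_univ, true_and] at hp hp'
    rcases Sym2.eq_iff.1 h with h1 | h1
    · exact Prod.ext h1.1 h1.2
    · exfalso
      have h2 := hp.1
      rw [h1.1, h1.2] at h2
      exact lt_asymm h2 hp'.1
  · intro e he
    rw [SimpleGraph.mem_edgeFinset] at he
    induction e using Sym2.ind with
    | _ x y =>
      rw [SimpleGraph.mem_edgeSet] at he
      rcases lt_or_gt_of_ne he.ne with h1 | h1
      · exact ⟨(x, y), by simp [h1, he], rfl⟩
      · exact ⟨(y, x), by simp [h1, he.symm], Sym2.eq_swap⟩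

open Classical in
theorem ascG_fromRel {n N : ℕ} (h : Fin n → Fin n) (f : Fin n → Fin N) :
    ascG (SimpleGraph.fromRel fun i j : Fin n => i < j ∧ j ≤ h i) f =
      #{p : Fin n × Fin n | p.1 < p.2 ∧ p.2 ≤ h p.1 ∧ f p.1 < f p.2} := by
  unfold ascG
  congr 1
  ext p
  simp only [Finset.mem_filter, Finset.mem_univ, true_and, SimpleGraph.fromRel_adj]
  constructor
  · rintro ⟨h1, ⟨_, h2 | h2⟩, h3⟩
    · exact ⟨h1, h2.2, h3⟩
    · exact absurd h2.1 (not_lt.2 h1.le)
  · rintro ⟨h1, h2, h3⟩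
    exact ⟨h1, ⟨h1.ne, Or.inl ⟨h1, h2⟩⟩, h3⟩

theorem fromRel_iff {n : ℕ} (h : Fin n → Fin n) (i j : Fin n) (hij : i < j) :
    j ≤ h i ↔ (SimpleGraph.fromRel fun i j : Fin n => i < j ∧ j ≤ h i).Adj i j := by
  rw [SimpleGraph.fromRel_adj]
  constructor
  · intro h1
    exact ⟨hij.ne, Or.inl ⟨hij, h1⟩⟩
  · rintro ⟨_, h2 | h2⟩
    · exact h2.2
    · exact absurd h2.1 (not_lt.2 hij.le)

end Vale.Agent.P066.H52
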