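import Vale.Agent.P066.H52.Coeff

set_option autoImplicit false

namespace Vale.Agent.P066.H52

open Finset

open Classical in
/-- The number of edges `{a, b}`, `a < b`, of `G` with `f a < f b`. -/
noncomputable def ascG {V : Type*} [Fintype V] [LinearOrder V] (G : SimpleGraph V) {N : ℕ}
    (f : V → Fin N) : ℕ :=
  #{p : V × V | p.1 < p.2 ∧ G.Adj p.1 p.2 ∧ f p.1 < f p.2}

open Classical in
/-- The number of edges `{a, b}`, `a < b`, of `G`. -/
noncomputable def edg {V : Type*} [Fintype V] [LinearOrder V] (G : SimpleGraph V) : ℕ :=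
  #{p : V × V | p.1 < p.2 ∧ G.Adj p.1 p.2}

theorem ascG_le {V : Type*} [Fintype V] [LinearOrder V] (G : SimpleGraph V) {N : ℕ}
    (f : V → Fin N) : ascG G f ≤ edg G := by
  classical
  unfold ascG edg
  apply Finset.card_le_card
  intro p hp
  simp only [Finset.mem_filter, Finset.mem_univ, true_and] at hp ⊢
  exact ⟨hp.1, hp.2.1⟩

theorem ascG_rev {V : Type*} [Fintype V] [LinearOrder V] (G : SimpleGraph V) {N : ℕ}
    (f : V → Fin N) (hf : ∀ a b, G.Adj a b → f a ≠ f b) :
    ascG G (fun a => Fin.rev (f a)) = edg G - ascG G f := by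
  classical
  have h : ascG G f + ascG G (fun a => Fin.rev (f a)) = edg G := by
    unfold ascG edg
    rw [← Finset.card_union_of_disjoint]
    · congr 1
      ext p
      simp only [Finset.mem_union, Finset.mem_filter, Finset.mem_univ, true_and]
      constructor
      · rintro (h | h)
        · exact ⟨h.1, h.2.1⟩
        · exact ⟨h.1, h.2.1⟩
      · intro h
        rcases lt_or_gt_of_ne (hf _ _ h.2) with h' | h'
        · exact Or.inl ⟨h.1, h.2, h'⟩
        · exact Or.inr ⟨h.1, h.2, Fin.rev_lt_rev.2 h'⟩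
    · rw [Finset.disjoint_left]
      intro p hp hp'
      simp only [Finset.mem_filter, Finset.mem_univ, true_and] at hp hp'
      exact absurd (Fin.rev_lt_rev.1 hp'.2.2) (not_lt.2 hp.2.2.le)
  omega

/-- The expansion property. -/
def Expands {V : Type*} [Fintype V] [LinearOrder V] (G : SimpleGraph V) {n : ℕ}
    (c : n.Partition → Polynomial ℤ) : Prop :=
  ∀ N : ℕ, ∑ κ : G.Coloring (Fin N), MvPolynomial.C (Polynomial.X ^ ascG G κ) *
      ∏ a, MvPolynomial.X (κ a) =
    ∑ p : n.Partition, MvPolynomial.C (c p) * MvPolynomial.esymmPart (Fin N) (Polynomial ℤ) p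

/-- The coefficientwise reflection as an additive map. -/
noncomputable def reflHom (m : ℕ) : Polynomial ℤ →+ Polynomial ℤ :=
  AddMonoidHom.mk' (Polynomial.reflect m) (fun a b => Polynomial.reflect_add a b m)

/-- The truncation to degree `≤ m` as an additive map. -/
noncomputable def truncHom (m : ℕ) : Polynomial ℤ →+ Polynomial ℤ :=
  (Polynomial.modByMonicHom (Polynomial.X ^ (m + 1))).toAddMonoidHom

theorem expands_refl {V : Type*} [Fintype V] [LinearOrder V] (G : SimpleGraph V) {n : ℕ}
    (c : n.Partition → Polynomial ℤ) (hc : Expands G c) :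
    Expands G (fun p => reflHom (edg G) (c p)) := by
  intro N
  have h0 := congrArg (MvPolynomial.rename (R := Polynomial ℤ) (Fin.revPerm : Fin N ≃ Fin N)) (hc N)
  rw [map_sum, map_sum] at h0
  simp only [map_mul, MvPolynomial.rename_C, map_prod, MvPolynomial.rename_X,
    rename_esymmPart] at h0
  have h1 : ∑ κ : G.Coloring (Fin N), MvPolynomial.C (Polynomial.X ^ (edg G - ascG G κ)) *
      ∏ a, (MvPolynomial.X (κ a) : MvPolynomial (Fin N) (Polynomial ℤ)) =
      ∑ p : n.Partition, MvPolynomial.C (c p) *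
        MvPolynomial.esymmPart (Fin N) (Polynomial ℤ) p := by
    rw [← h0]
    refine Fintype.sum_equiv (G.recolorOfEquiv Fin.revPerm) _ _ (fun κ => ?_)
    have hκ : ∀ a, (G.recolorOfEquiv Fin.revPerm κ) a = Fin.rev (κ a) := fun a => rfl
    have h2 : ascG G (G.recolorOfEquiv Fin.revPerm κ) = edg G - ascG G κ :=
      ascG_rev G κ (fun a b hab => κ.valid hab)
    rw [h2]
    simp only [Fin.revPerm_apply, hκ, Fin.rev_rev]
  have h3 := applyHom_esymm (reflHom (edg G)) univ (fun κ : G.Coloring (Fin N) => ⇑κ)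
    (fun κ => Polynomial.X ^ (edg G - ascG G κ)) c h1
  rw [← h3]
  refine Finset.sum_congr rfl (fun κ _ => ?_)
  congr 2
  change _ = Polynomial.reflect (edg G) (Polynomial.X ^ (edg G - ascG G κ))
  rw [Polynomial.reflect_monomial, Polynomial.revAt_le (Nat.sub_le _ _),
    Nat.sub_sub_self (ascG_le G κ)]

theorem expands_trunc {V : Type*} [Fintype V] [LinearOrder V] (G : SimpleGraph V) {n : ℕ}
    (c : n.Partition → Polynomial ℤ) (hc : Expands G c) :
    Expands G (fun p => truncHom (edg G) (c p)) := by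
  intro N
  have h3 := applyHom_esymm (truncHom (edg G)) univ (fun κ : G.Coloring (Fin N) => ⇑κ)
    (fun κ => Polynomial.X ^ (ascG G κ)) c (hc N)
  rw [← h3]
  refine Finset.sum_congr rfl (fun κ _ => ?_)
  congr 2
  change _ = Polynomial.X ^ (ascG G κ) %ₘ Polynomial.X ^ (edg G + 1)
  symm
  rw [Polynomial.modByMonic_eq_self_iff (Polynomial.monic_X_pow _)]
  rw [Polynomial.degree_X_pow, Polynomial.degree_X_pow]
  exact_mod_cast Nat.lt_succ_of_le (ascG_le G κ)

theorem trunc_degree (m : ℕ) (p : Polynomial ℤ) (h : truncHom m p = p) : p.natDegree ≤ m := by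
  have h1 : (p %ₘ Polynomial.X ^ (m + 1)).degree < (Polynomial.X ^ (m + 1) : Polynomial ℤ).degree :=
    Polynomial.degree_modByMonic_lt _ (Polynomial.monic_X_pow _)
  have h2 : p %ₘ Polynomial.X ^ (m + 1) = p := h
  rw [h2, Polynomial.degree_X_pow] at h1
  refine Polynomial.natDegree_le_iff_coeff_eq_zero.2 (fun k hk => ?_)
  exact Polynomial.coeff_eq_zero_of_degree_lt (lt_of_lt_of_le h1 (by exact_mod_cast hk))

theorem refl_coeff (m : ℕ) (p : Polynomial ℤ) (h : reflHom m p = p) (i j : ℕ) (hij : i + j = m) :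
    p.coeff i = p.coeff j := by
  have h2 : Polynomial.reflect m p = p := h
  have h3 : (Polynomial.reflect m p).coeff i = p.coeff j := by
    rw [Polynomial.coeff_reflect, Polynomial.revAt_le (by omega)]
    congr 1
    omega
  rw [h2] at h3
  exact h3

end Vale.Agent.P066.H52
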