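import Vale.Agent.P066.H52.Palin
import Vale.Agent.P066.Theta.Top3
import Vale.Agent.P066.Lab.LA
import Vale.Agent.P066.Lab.LSW.W2
import Vale.Agent.P066.Lab.LSW.W4
import Vale.Agent.P066.Lab.H69.W1
import Vale.Agent.P066.Lab.H402.W0
import Vale.Agent.P066.Lab.H66.W3
import Mathlib.Algebra.Polynomial.Lifts

set_option autoImplicit false

namespace Vale.Agent.P066.H52

open Finset

variable {V : Type*} [Fintype V] [LinearOrder V]

theorem asc_eq {n N : ℕ} (e : Fin n ≃o V) (H : SimpleGraph (Fin n)) (G : SimpleGraph V)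
    (hH : ∀ i j, H.Adj i j ↔ G.Adj (e i) (e j)) (f : V → Fin N) :
    asc H (fun i => f (e i)) = ascG G f := by
  classical
  unfold asc ascG
  refine Finset.card_bij' (fun p _ => (e p.1, e p.2)) (fun p _ => (e.symm p.1, e.symm p.2))
    ?_ ?_ ?_ ?_
  · intro p hp
    simp only [Finset.mem_filter, Finset.mem_univ, true_and] at hp ⊢
    exact ⟨e.lt_iff_lt.2 hp.1, (hH _ _).1 hp.2.1, hp.2.2⟩
  · intro p hp
    simp only [Finset.mem_filter, Finset.mem_univ, true_and] at hp ⊢
    refine ⟨e.symm.lt_iff_lt.2 hp.1, (hH _ _).2 ?_, ?_⟩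
    · simpa using hp.2.1
    · simpa using hp.2.2
  · intro p _
    simp
  · intro p _
    simp

theorem chrom_eq {n : ℕ} (e : Fin n ≃o V) (H : SimpleGraph (Fin n)) (G : SimpleGraph V)
    (hH : ∀ i j, H.Adj i j ↔ G.Adj (e i) (e j)) (N : ℕ) :
    chromaticQSF H N = ∑ κ : G.Coloring (Fin N), MvPolynomial.C (Polynomial.X ^ ascG G κ) *
      ∏ a, MvPolynomial.X (κ a) := by
  classical
  unfold chromaticQSF
  symm
  refine Finset.sum_bij (fun κ _ => fun i => κ (e i)) ?_ ?_ ?_ ?_
  · intro κ _
    simp only [Finset.mem_filter, Finset.mem_univ, true_and]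
    intro a b hab
    exact κ.valid ((hH a b).1 hab)
  · intro κ _ κ' _ hk
    apply DFunLike.ext
    intro v
    have := congrFun hk (e.symm v)
    simpa using this
  · intro f hf
    simp only [Finset.mem_filter, Finset.mem_univ, true_and] at hf
    refine ⟨SimpleGraph.Coloring.mk (fun v => f (e.symm v)) ?_, Finset.mem_univ _, ?_⟩
    · intro v w hvw
      apply hf
      rw [hH]
      simpa using hvw
    · funext i
      change f (e.symm (e i)) = f i
      simp
  · intro κ _
    rw [asc_eq e H G hH κ]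
    congr 1
    exact (Equiv.prod_comp e.toEquiv (fun v => (MvPolynomial.X (κ v) :
      MvPolynomial (Fin N) (Polynomial ℤ)))).symm

/-- The general form: `G` on a linear order, numbered by `e`, with edges given by `h`. -/
theorem main {n : ℕ} (e : Fin n ≃o V) (G : SimpleGraph V) (h : Fin n → Fin n)
    (hmono : Monotone h) (hG : ∀ i j, i < j → (j ≤ h i ↔ G.Adj (e i) (e j))) :
    ∃ c : n.Partition → Polynomial ℕ,
      (∀ c' : n.Partition → Polynomial ℤ,
        Expands G c' ↔ ∀ p, c' p = (c p).map (Nat.castRingHom ℤ)) ∧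
      (∀ p, (c p).natDegree ≤ edg G) ∧
      (∀ p i j, i + j = edg G → (c p).coeff i = (c p).coeff j) := by
  obtain ⟨c, hc0, hc⟩ := Theta.shareshianWachs_of_LA_LS Lab.HN.laout
    (Lab.LSW.w4 Lab.H402.w0 Lab.H69.w1 Lab.LSW.w2a Lab.LSW.w2b Lab.LSW.H66.w3) h hmono
  have hH : ∀ i j, (unitIntervalGraph h).Adj i j ↔ G.Adj (e i) (e j) := by
    intro i j
    change ((i < j ∧ j ≤ h i) ∨ (j < i ∧ i ≤ h j)) ↔ _
    rcases lt_trichotomy i j with hij | hij | hij
    · constructor
      · rintro (h1 | h1)
        · exact (hG i j hij).1 h1.2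
        · exact absurd h1.1 (not_lt.2 hij.le)
      · intro h1
        exact Or.inl ⟨hij, (hG i j hij).2 h1⟩
    · subst hij
      simp
    · constructor
      · rintro (h1 | h1)
        · exact absurd h1.1 (not_lt.2 hij.le)
        · exact ((hG j i hij).1 h1.2).symm
      · intro h1
        exact Or.inr ⟨hij, (hG j i hij).2 h1.symm⟩
  have hex : ∀ c' : n.Partition → Polynomial ℤ, Expands G c' ↔ c' = c := by
    intro c'
    rw [← hc c']
    unfold Expands
    refine forall_congr' (fun N => ?_)
    rw [chrom_eq e (unitIntervalGraph h) G hH N]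
  have hlift : ∀ p, ∃ q : Polynomial ℕ, q.map (Nat.castRingHom ℤ) = c p := by
    intro p
    rw [← Polynomial.mem_lifts, Polynomial.lifts_iff_coeff_lifts]
    intro k
    exact ⟨((c p).coeff k).toNat, Int.toNat_of_nonneg (hc0 p k)⟩
  choose d hd using hlift
  have hinj : Function.Injective (Nat.castRingHom ℤ) := Nat.cast_injective
  have hself : Expands G c := (hex c).2 rfl
  refine ⟨d, ?_, ?_, ?_⟩
  · intro c'
    rw [hex c']
    simp only [hd]
    exact funext_iff
  · intro p
    rw [← Polynomial.natDegree_map_eq_of_injective hinj (d p), hd p]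
    apply trunc_degree
    exact congrFun ((hex _).1 (expands_trunc G c hself)) p
  · intro p i j hij
    apply hinj
    have h1 := refl_coeff (edg G) (c p)
      (congrFun ((hex _).1 (expands_refl G c hself)) p) i j hij
    rw [← hd p, Polynomial.coeff_map, Polynomial.coeff_map] at h1
    exact h1

omit [Fintype V] in
/-- Every graph with `x < y < z`, `x ~ z` implying `x ~ y` and `y ~ z` is given by some `h`. -/
theorem exists_h {n : ℕ} (e : Fin n ≃o V) (G : SimpleGraph V)
    (hG : ∀ x y z, x < y → y < z → G.Adj x z → G.Adj x y ∧ G.Adj y z) :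
    ∃ h : Fin n → Fin n, Monotone h ∧ ∀ i j, i < j → (j ≤ h i ↔ G.Adj (e i) (e j)) := by
  classical
  have hne : ∀ i, (univ.filter (fun j => j = i ∨ (i < j ∧ G.Adj (e i) (e j)))).Nonempty :=
    fun i => ⟨i, by simp⟩
  have hle : ∀ i j, i < j → G.Adj (e i) (e j) →
      j ≤ (univ.filter (fun j => j = i ∨ (i < j ∧ G.Adj (e i) (e j)))).max' (hne i) := by
    intro i j hij hadj
    apply Finset.le_max'
    simp [hij, hadj]
  have hmem : ∀ i, (univ.filter (fun j => j = i ∨ (i < j ∧ G.Adj (e i) (e j)))).max' (hne i) = i ∨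
      (i < (univ.filter (fun j => j = i ∨ (i < j ∧ G.Adj (e i) (e j)))).max' (hne i) ∧
        G.Adj (e i) (e ((univ.filter
          (fun j => j = i ∨ (i < j ∧ G.Adj (e i) (e j)))).max' (hne i)))) := by
    intro i
    have := Finset.max'_mem _ (hne i)
    simpa only [Finset.mem_filter, Finset.mem_univ, true_and] using this
  have hself : ∀ i,
      i ≤ (univ.filter (fun j => j = i ∨ (i < j ∧ G.Adj (e i) (e j)))).max' (hne i) := by
    intro i
    apply Finset.le_max'
    simp
  refine ⟨fun i => (univ.filter (fun j => j = i ∨ (i < j ∧ G.Adj (e i) (e j)))).max' (hne i),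
    ?_, ?_⟩
  · intro i i' hii
    rcases hii.lt_or_eq with hlt | heq
    · change (univ.filter (fun j => j = i ∨ (i < j ∧ G.Adj (e i) (e j)))).max' (hne i) ≤
        (univ.filter (fun j => j = i' ∨ (i' < j ∧ G.Adj (e i') (e j)))).max' (hne i')
      rcases le_or_gt ((univ.filter
          (fun j => j = i ∨ (i < j ∧ G.Adj (e i) (e j)))).max' (hne i)) i' with h1 | h1
      · exact h1.trans (hself i')
      · rcases hmem i with h2 | h2
        · rw [h2] at h1
          exact absurd h1 (not_lt.2 hlt.le)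
        · apply hle i' _ h1
          exact (hG _ _ _ (e.lt_iff_lt.2 hlt) (e.lt_iff_lt.2 h1) h2.2).2
    · rw [heq]
  · intro i j hij
    constructor
    · intro h1
      change j ≤ (univ.filter (fun j => j = i ∨ (i < j ∧ G.Adj (e i) (e j)))).max' (hne i) at h1
      rcases hmem i with h2 | h2
      · rw [h2] at h1
        exact absurd hij (not_lt.2 h1)
      · rcases h1.lt_or_eq with h3 | h3
        · exact (hG _ _ _ (e.lt_iff_lt.2 hij) (e.lt_iff_lt.2 h3) h2.2).1
        · rw [h3]
          exact h2.2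
    · intro h1
      exact hle i j hij h1

end Vale.Agent.P066.H52
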